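import Vale.Agent.P321.R4.H101.Spec

/-! # The base elements with constants polynomial in `1 / q` -/

namespace Vale.Agent.P321.Lt

open Finset Finset.Nat
open MA (ev le Prob push restr Dom)

variable {q : ℝ}

/-- The base elements, with ratio `1 + C / sqrt L`, any `C` above the explicit formulas. -/
theorem near_of_k0 (h0 : 0 < q) (h1 : q < 1) {k0 : ℕ} (hk1 : 1 ≤ k0)
    (hk : (1 - 2 * q ^ 2 / 3) ^ k0 ≤ 1 / 3) {C : ℝ} (hCK : 2 * (3 * (k0 : ℝ)) * q⁻¹ ≤ C)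
    (hCk : 96 * (k0 : ℝ) ^ 2 ≤ C) (L : ℕ) (hL : 3 * k0 + 2 ≤ L) :
      ∃ Y X0 X1 : Alg, Prob Y ∧ Prob X0 ∧ Prob X1 ∧
        MA.l1 (W q (xw L L) - Y) ≤ 6 * (1 - 2 * q ^ 2 / 3) ^ L ∧
        MA.l1 (W q (xw (L - 1) (L + 1)) - X0) ≤ 6 * (1 - 2 * q ^ 2 / 3) ^ L ∧
        MA.l1 (W q (xw (L + 1) (L - 1)) - X1) ≤ 6 * (1 - 2 * q ^ 2 / 3) ^ L ∧
        le Y ((1 + C / Real.sqrt L) • X0) ∧ le Y ((1 + C / Real.sqrt L) • X1) ∧
        le X0 ((1 + C / Real.sqrt L) • Y) ∧ le X1 ((1 + C / Real.sqrt L) • Y) ∧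
        (∀ δ : ℝ, 0 ≤ δ → Dom ((1 / 2 : ℝ) • (cell q (L + 1) (L - 1) - cell q (L - 1) (L + 1)))
          (U q ^ (2 * L + 1)) δ → Dom ((1 / 2 : ℝ) • (X1 - X0)) Y (C * δ)) ∧
        (∀ δ : ℝ, 0 ≤ δ → Dom ((1 / 2 : ℝ) • (cell q (L + 1) (L - 1) + cell q (L - 1) (L + 1))
            - cell q L L) (U q ^ (2 * L + 1)) δ →
          Dom ((1 / 2 : ℝ) • (X1 + X0) - Y) Y (C * δ)) := by
  set ρ : ℝ := 1 - 2 * q ^ 2 / 3 with hρ
  have hq2 : q ^ 2 < 1 := by nlinarith only [h1, h0]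
  have hq2' : 0 < q ^ 2 := by positivity
  have hρ0 : 0 < ρ := by rw [hρ]; linarith only [hq2]
  have hρ1 : ρ < 1 := by rw [hρ]; linarith only [hq2']
  have hn0 : ρ ^ (2 * k0) < 1 / 6 := by
    rw [mul_comm, pow_mul]
    have h3 : 0 ≤ ρ ^ k0 := (pow_pos hρ0 _).le
    nlinarith only [hk, h3]
  set K : ℝ := 3 * k0 with hK
  have hk1' : (1 : ℝ) ≤ k0 := by exact_mod_cast hk1
  have hK3 : 3 ≤ K := by rw [hK]; linarith only [hk1']
  have hqi : 1 < q⁻¹ := (one_lt_inv₀ h0).mpr h1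
  have hC1 : 1 ≤ C := by
    have : 1 ≤ (k0 : ℝ) ^ 2 := one_le_pow₀ hk1'
    linarith only [hρ, hq2, hρ1, hCk, this]
  obtain ⟨l, rfl⟩ : ∃ l, L = l + 2 := ⟨L - 2, by omega⟩
  have hL1 : 1 ≤ l + 2 := by omega
  set D := (l + 2) / k0 with hD
  have hDL : D ≤ l + 2 := Nat.div_le_self _ _
  have hD1 : 1 ≤ D := (Nat.one_le_div_iff (by omega)).mpr (by omega)
  have hms : 1 - ms q (l + 2) D ≤ 3 * ρ ^ (l + 2) := one_sub_ms_le h0 h1 hk (l + 2)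
  have hρL : ρ ^ (l + 2) ≤ 1 / 6 :=
    (pow_le_pow_of_le_one hρ0.le hρ1.le (by omega : 2 * k0 ≤ l + 2)).trans hn0.le
  have hm2 : 1 / 2 ≤ ms q (l + 2) D := by linarith only [hρL, hms]
  have hm0 : 0 < ms q (l + 2) D := by linarith only [hms, hρL]
  have hDle : 2 * (l + 2) - D ≤ 2 * (l + 2) := Nat.sub_le _ _
  have h3 : ((l + 2 : ℕ) : ℝ) ≤ k0 * (D + 1) := by
    have h4 := Nat.lt_mul_div_succ (l + 2) hk1
    have h5 : l + 2 ≤ k0 * (D + 1) := h4.le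
    exact_mod_cast h5
  have hD1' : (1 : ℝ) ≤ D := by exact_mod_cast hD1
  have h3' : (l : ℝ) + 2 ≤ 2 * k0 * D := by
    push_cast at h3
    nlinarith only [h3, hD1', hk1']
  have hTc : ((2 * (l + 2) - D : ℕ) : ℝ) = 2 * ((l : ℝ) + 2) - D := by
    rw [Nat.cast_sub (by omega : D ≤ 2 * (l + 2))]; push_cast; ring
  have hKineq : q ^ 2 * ((2 * (l + 2) : ℕ) + 1 : ℝ)
      ≤ K * (((2 * (l + 2) : ℕ) : ℝ) + 1 - ((2 * (l + 2) - D : ℕ) : ℝ)) := by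
    rw [Nat.cast_sub (by omega : D ≤ 2 * (l + 2))]
    have h6 : (1 : ℝ) ≤ ((l + 2 : ℕ) : ℝ) := by exact_mod_cast hL1
    push_cast at h3 h6 ⊢
    rw [hK]
    nlinarith only [hq2, h3]
  have hK0 : 0 ≤ K := by linarith only [hK3]
  have hab0 : l + 2 + (l + 2) = 2 * (l + 2) := by omega
  have e1 : l + 2 - 1 = l + 1 := by omega
  have e2 : l + 2 + 1 = l + 3 := by omega
  rw [e1, e2]
  have hab1 : l + 1 + (l + 3) = 2 * (l + 2) := by (clear * -; omega)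
  have hab2 : l + 3 + (l + 1) = 2 * (l + 2) := by (clear * -; omega)
  obtain ⟨n1, n2, n3, n4⟩ := restr_cell_near h0 h1 (l := l) (T := 2 * (l + 2) - D) (D := (D : ℝ))
    (by linarith only [hD1']) (by rw [hTc]; linarith only [])
  have hκ : kapL q l D ≤ C / Real.sqrt ((l + 2 : ℕ) : ℝ) := by
    refine (kapL_le h0 h1 hk1 (by linarith only [hD1']) h3').trans ?_
    push_cast
    exact div_le_div_of_nonneg_right hCk (Real.sqrt_nonneg _)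
  set Y := hat q (l + 2) D (cell q (l + 2) (l + 2)) with hY
  set X0 := hat q (l + 2) D (cell q (l + 1) (l + 3)) with hX0
  set X1 := hat q (l + 2) D (cell q (l + 3) (l + 1)) with hX1
  have pY : Prob Y := prob_hat h0.le h1.le hm0 hab0
  have pX0 : Prob X0 := prob_hat h0.le h1.le hm0 hab1
  have pX1 : Prob X1 := prob_hat h0.le h1.le hm0 hab2
  have up : ∀ {x y : Alg}, Prob y → le x ((1 + kapL q l D) • y) →
      le x ((1 + C / Real.sqrt ((l + 2 : ℕ) : ℝ)) • y) := by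
    intro x y hy hxy
    refine MA.le_trans hxy ?_
    rw [MA.le_iff, ← sub_smul]
    exact MA.nonneg_smul (by linarith only [hκ]) hy.1
  refine ⟨Y, X0, X1, pY, pX0, pX1, ?_, ?_, ?_, up pX0 (hat_le_of_restr hm0 n4),
    up pX1 (hat_le_of_restr hm0 n3), up pY (hat_le_of_restr hm0 n2),
    up pY (hat_le_of_restr hm0 n1), ?_, ?_⟩
  · exact (hat_l1 h0.le h1.le hm0 hab0).trans (by linarith only [hms])
  · exact (hat_l1 h0.le h1.le hm0 hab1).trans (by linarith only [hms])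
  · exact (hat_l1 h0.le h1.le hm0 hab2).trans (by linarith only [hms])
  · intro δ hδ hdom
    have h3 := hat_dom h0 h1.le hDle hKineq hK0 hm2 hδ hdom
    rw [hat_smul, hat_sub] at h3
    exact h3.mono pY.1 (mul_le_mul_of_nonneg_right hCK hδ)
  · intro δ hδ hdom
    have h3 := hat_dom h0 h1.le hDle hKineq hK0 hm2 hδ hdom
    rw [hat_sub, hat_smul, hat_add] at h3
    exact h3.mono pY.1 (mul_le_mul_of_nonneg_right hCK hδ)

/-- the explicit `k0` -/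
theorem k0_ok (h0 : 0 < q) (h1 : q < 1) : (1 - 2 * q ^ 2 / 3) ^ ⌈2 / q ^ 2⌉₊ ≤ 1 / 3 := by
  have hq2 : q ^ 2 < 1 := by nlinarith only [h1, h0]
  have hq2' : 0 < q ^ 2 := by positivity
  have hk : 2 / q ^ 2 ≤ (⌈2 / q ^ 2⌉₊ : ℝ) := Nat.le_ceil _
  have h2 : 2 ≤ q ^ 2 * (⌈2 / q ^ 2⌉₊ : ℝ) := by
    rw [div_le_iff₀ hq2'] at hk; linarith only [hk]
  have h3 : (1 - 2 * q ^ 2 / 3) ^ ⌈2 / q ^ 2⌉₊ ≤ Real.exp (-(4 / 3)) := by
    calc (1 - 2 * q ^ 2 / 3) ^ ⌈2 / q ^ 2⌉₊ ≤ Real.exp (-(2 * q ^ 2 / 3)) ^ ⌈2 / q ^ 2⌉₊ := by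
          refine pow_le_pow_left₀ (by linarith only [hq2]) ?_ _
          have := Real.add_one_le_exp (-(2 * q ^ 2 / 3))
          linarith only [this]
      _ = Real.exp ((⌈2 / q ^ 2⌉₊ : ℝ) * (-(2 * q ^ 2 / 3))) := (Real.exp_nat_mul _ _).symm
      _ ≤ _ := Real.exp_le_exp.mpr (by linarith only [h2])
  refine h3.trans ?_
  rw [Real.exp_neg, inv_le_comm₀ (Real.exp_pos _) (by norm_num)]
  have h5 := Real.quadratic_le_exp_of_nonneg (show (0 : ℝ) ≤ 4 / 3 by norm_num)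
  norm_num at h5 ⊢
  linarith only [h5]

end Vale.Agent.P321.Lt

namespace Vale.Agent.P321.R4.H306

open Finset
open Vale.Agent.P321.Lt
open Vale.Agent.P321.MA (ev le Prob push restr Dom)

theorem stNear : H101.StNear := by
  refine ⟨6, by norm_num, fun q h0 hq L hL => ?_⟩
  have h1 : q < 1 := by linarith only [hq]
  have hq2 : q ^ 2 ≤ 1 / 4 := by nlinarith only [h0, hq]
  have hq2' : 0 < q ^ 2 := by positivity
  have hi : 2 ≤ q⁻¹ := by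
    rw [le_inv_comm₀ (by norm_num) h0]; linarith only [hq]
  set t := q⁻¹ with ht
  have ht0 : 0 < t := by linarith only [hi]
  have hP : H101.Pq 6 q = 46656 * t ^ 6 := by
    rw [H101.Pq, div_eq_mul_inv, ← ht, mul_pow]; norm_num
  have h2q : 2 / q ^ 2 = 2 * t ^ 2 := by rw [ht]; field_simp
  have hk1 : 1 ≤ ⌈2 / q ^ 2⌉₊ := Nat.ceil_pos.mpr (by positivity)
  have hkR : (⌈2 / q ^ 2⌉₊ : ℝ) ≤ 3 * t ^ 2 := by
    have h3 := (Nat.ceil_lt_add_one (show 0 ≤ 2 / q ^ 2 by positivity)).le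
    rw [h2q] at h3 ⊢
    nlinarith only [h3, hi]
  have hk := k0_ok h0 h1
  set k0 := ⌈2 / q ^ 2⌉₊ with hk0
  have hk0R : (0 : ℝ) ≤ k0 := Nat.cast_nonneg _
  have ht2 : 4 ≤ t ^ 2 := by nlinarith only [hi]
  have ht4 : t ^ 4 = t ^ 2 * t ^ 2 := by ring
  have ht6 : t ^ 6 = t ^ 2 * t ^ 2 * t ^ 2 := by ring
  have hCk : 96 * (k0 : ℝ) ^ 2 ≤ H101.Pq 6 q := by
    rw [hP, ht6]
    have h4 : (k0 : ℝ) ^ 2 ≤ (3 * t ^ 2) ^ 2 := pow_le_pow_left₀ hk0R hkR 2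
    have h5 : 0 ≤ t ^ 2 * t ^ 2 := by positivity
    nlinarith only [h4, h5, ht2, mul_nonneg h5 (sub_nonneg.2 ht2)]
  have hCK : 2 * (3 * (k0 : ℝ)) * q⁻¹ ≤ H101.Pq 6 q := by
    rw [hP, ← ht, ht6]
    have h4 : 2 * (3 * (k0 : ℝ)) * t ≤ 2 * (3 * (3 * t ^ 2)) * t := by gcongr
    have h5 : 0 ≤ t ^ 2 * t ^ 2 := by positivity
    have h6 : t ≤ t ^ 2 := by nlinarith only [hi]
    have h7 : t ^ 2 * t ≤ t ^ 2 * t ^ 2 := by gcongr
    nlinarith only [h4, h5, h7, ht2, mul_nonneg h5 (sub_nonneg.2 ht2)]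
  have hL' : 3 * k0 + 2 ≤ L := by
    have h4 : ((3 * k0 + 2 : ℕ) : ℝ) ≤ L := by
      refine le_trans ?_ hL
      rw [hP, ht6]
      push_cast
      have h5 : 0 ≤ t ^ 2 * t ^ 2 := by positivity
      nlinarith only [hkR, ht2, mul_nonneg h5 (sub_nonneg.2 ht2), h5,
        mul_nonneg (sub_nonneg.2 ht2) (sub_nonneg.2 ht2)]
    exact_mod_cast h4
  obtain ⟨Y, X0, X1, pY, p0, p1, e, e0, e1, l0, l1, u0, u1, df, de⟩ :=
    near_of_k0 h0 h1 hk1 hk hCK hCk L hL'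
  have hκ : 0 ≤ H101.Pq 6 q / Real.sqrt L :=
    div_nonneg (by rw [hP]; positivity) (Real.sqrt_nonneg _)
  exact ⟨Y, X0, X1, pY, p0, p1, e, e0, e1, lo_of_hi hκ p0.nonneg pY.nonneg l0,
    lo_of_hi hκ p1.nonneg pY.nonneg l1, u0, u1, df, de⟩

end Vale.Agent.P321.R4.H306
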