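import Vale.Agent.P321.R4.H101.Spec

/-! # The overlap of `X ^ K` and `X ^ (K + 1)` with constants polynomial in `1 / q` -/

set_option linter.unusedSectionVars false

namespace Vale.Agent.P321

open Finset Polynomial

namespace Cr

open Lt

/-- the constant of `invisible` -/
noncomputable def invC (q s0 : ℝ) : ℝ :=
  Real.sqrt (3 * (24 * ((1 - q) ^ 2 * kap (nu q) 0) * (cc s0 * (1 + 12 / s0 ^ 2)) * cc s0)) + 2 +
    2 * (24 * ((1 - q) ^ 2 * kap (nu q) 0) * (cc s0 * (1 + 12 / s0 ^ 2)))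

/-- the constant of `blank_compare` -/
noncomputable def blaC (q : ℝ) : ℝ :=
  (2 * cc (min (q ^ 2) (1 - q ^ 2)) + 3) + cc (min q (1 - q))

/-- the constant of `overlap_core` -/
noncomputable def ovC (q : ℝ) : ℝ := 2 * invC q (min (q ^ 2) ((1 - q ^ 2) / 2)) + blaC q

theorem invC_pos {q s0 : ℝ} (hq0 : 0 < q) (hq1 : q < 1) (hs0 : 0 < s0) : 0 < invC q s0 := by
  have hM0 := kap_nonneg (law_nu hq0 hq1) 0
  have hc0 : 0 < cc s0 := cc_pos hs0
  unfold invC
  positivity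

theorem blaC_pos {q : ℝ} (hq0 : 0 < q) (hq1 : q < 1) : 0 < blaC q := by
  have hq2 : q ^ 2 < 1 := by nlinarith only [hq1, hq0]
  have h1 : 0 < cc (min (q ^ 2) (1 - q ^ 2)) := cc_pos (lt_min (by positivity) (by linarith))
  have h2 : 0 < cc (min q (1 - q)) := cc_pos (lt_min hq0 (by linarith))
  unfold blaC
  positivity

/-- **Invisibility of the marked letters.** -/
theorem invisible_x {q s0 : ℝ} (hq0 : 0 < q) (hq1 : q < 1) (hs0 : 0 < s0) :
    ∀ s : ℝ, s0 ≤ s → s ≤ 1 - s0 → ∀ K L : ℕ, 1 ≤ K → K ≤ L →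
      MA.l1 ((Us q s ^ L * E q * Us q s ^ L) ^ K - (Us q s ^ L * Eb q * Us q s ^ L) ^ K)
        ≤ invC q s0 * ((K : ℝ) / L) ^ (1 / 8 : ℝ) := by
  set p : ℝ := 1 - q with hp
  set M : ℝ := p ^ 2 * kap (nu q) 0 with hM
  have hν := law_nu hq0 hq1
  have hM0 : 0 ≤ M := mul_nonneg (sq_nonneg _) (kap_nonneg hν 0)
  set c := cc s0 with hc
  have hc0 : 0 < c := cc_pos hs0
  set R : ℝ := c * (1 + 12 / s0 ^ 2) with hR
  have hR0 : 0 < R := by (clear * - hc0 hs0; positivity)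
  set C3 : ℝ := 24 * M * R with hC3
  have hC30 : 0 ≤ C3 := by (clear * - hM0 hc0 hs0; positivity)
  set C2 : ℝ := 24 * M * R * c with hC2
  have hC20 : 0 ≤ C2 := by (clear * - hM0 hc0 hs0; positivity)
  have hinvC : invC q s0 = Real.sqrt (3 * C2) + 2 + 2 * C3 := rfl
  rw [hinvC]
  intro s hs1 hs2 K L hK hKL
  have hL : 1 ≤ L := le_trans hK hKL
  have hKR : (1 : ℝ) ≤ K := by exact_mod_cast hK
  have hLR : (1 : ℝ) ≤ L := by exact_mod_cast hL
  have hKLR : (K : ℝ) ≤ L := by exact_mod_cast hKL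
  have hL0 : (0 : ℝ) < L := by linarith only [hLR]
  have hK0 : (0 : ℝ) < K := by linarith only [hKR]
  set x : ℝ := (K : ℝ) / L with hx
  have hx0 : 0 < x := by (clear * - hK hL; positivity)
  have hx1 : x ≤ 1 := by rw [hx, div_le_one hL0]; exact hKLR
  have hs : 0 < s := by linarith only [hs0, hs1]
  have hs' : s ≤ 1 := by linarith only [hs0, hs2]
  have hpar : Par s p s0 L L := ⟨hs0, hs1, by linarith only [hs2], by linarith only [hq1], by linarith only [hq0], hL, le_rfl, by omega⟩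
  have hx8 : 0 < x ^ (1 / 8 : ℝ) := Real.rpow_pos_of_pos hx0 _
  have hx28 : Real.sqrt x ≤ x ^ (1 / 8 : ℝ) := by
    rw [Real.sqrt_eq_rpow]
    exact Real.rpow_le_rpow_of_exponent_ge hx0 hx1 (by norm_num)
  have hRR : RR s0 s L ≤ R / Real.sqrt L := by
    rw [hR, hc]
    unfold RR
    have : 0 ≤ cc s0 := (cc_pos hs0).le
    (clear * - hs0 hs1 hc0 hL; gcongr)
  have hpU : MA.Prob (Us q s) := prob_Us hq0.le hq1.le hs.le hs'
  have hpG : MA.Prob (Us q s ^ L * E q * Us q s ^ L) :=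
    L1Str.Prob.mul (L1Str.Prob.mul (L1Str.Prob.pow hpU _) (prob_E hq0.le hq1.le))
      (L1Str.Prob.pow hpU _)
  have hpG' : MA.Prob (Us q s ^ L * Eb q * Us q s ^ L) := by
    rw [Eb_eq]
    exact L1Str.Prob.mul (L1Str.Prob.mul (L1Str.Prob.pow hpU _)
      (prob_Us hq0.le hq1.le (by linarith only [hq1]) (by linarith only [hq0]))) (L1Str.Prob.pow hpU _)
  by_cases hsm : 24 * M * RR s0 s L * Real.sqrt K ≤ 1
  · -- main case
    set G := (Us q s ^ L * E q * Us q s ^ L) ^ K with hG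
    set G' := (Us q s ^ L * Eb q * Us q s ^ L) ^ K with hG'
    have hip : ip (nu q) (G - G') (G - G') ≤ C2 / L := by
      have h := ip_diff_le (a := 0) hν hpar hK hKL hsm
      have eG : G = al (nu q) (cn s ^ L) * EE (nu q) p 0 * HH (nu q) s p 0 L (K - 1) := by
        rw [hG, ← cell_pow_eq, Nat.sub_add_cancel hK]
      rw [← eG, ← blank_pow_eq, ← hG'] at h
      refine h.trans ?_
      have hsL : 0 < Real.sqrt (L : ℝ) := Real.sqrt_pos.mpr hL0
      have hsL2 : Real.sqrt (L : ℝ) * Real.sqrt L = L := Real.mul_self_sqrt hL0.le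
      calc 24 * M * RR s0 s L * (cc s0 / Real.sqrt L)
          ≤ 24 * M * (R / Real.sqrt L) * (c / Real.sqrt L) := by (clear * - hRR hM0 hc0 hL; gcongr)
        _ = C2 / (Real.sqrt L * Real.sqrt L) := by rw [hC2]; (clear * - hc0 hL hR0; field_simp)
        _ = C2 / L := by rw [hsL2]
    have hgG : gen G = (cn s ^ (2 * L) * cn p) ^ K := by
      rw [hG, map_pow, map_mul, map_mul, map_pow, gen_Us hq0.le, gen_E, two_mul, pow_add]
      congr 1; ring
    have hgG' : gen G' = (cn s ^ (2 * L) * cn p) ^ K := by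
      rw [hG', map_pow, map_mul, map_mul, map_pow, Eb_eq, gen_Us hq0.le, gen_Us hq0.le, two_mul,
        pow_add]
      congr 1; ring
    have hPB := (((PB.cn hs.le hs').pow (2 * L)).mul (PB.cn hpar.p0 hpar.p1)).pow K
    set a : ℝ := L * x ^ (1 / 4 : ℝ) with ha
    have hx4 : x ≤ x ^ (1 / 4 : ℝ) := by
      conv_lhs => rw [← Real.rpow_one x]
      exact Real.rpow_le_rpow_of_exponent_ge hx0 hx1 (by norm_num)
    have ha1 : 1 ≤ a := by
      have : (K : ℝ) = L * x := by rw [hx]; (clear * - hL hK; field_simp)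
      calc (1 : ℝ) ≤ K := hKR
        _ = L * x := this
        _ ≤ a := mul_le_mul_of_nonneg_left hx4 hL0.le
    have hmain := l1_diff_le hν (MA.nonneg_pow hpG.1 K) (MA.nonneg_pow hpG'.1 K) hPB hgG hgG' ha1 ?_ hip
    · refine hmain.trans ?_
      have t1 : Real.sqrt (3 * a * (C2 / L)) = Real.sqrt (3 * C2) * x ^ (1 / 8 : ℝ) := by
        have : 3 * a * (C2 / L) = (3 * C2) * x ^ (1 / 4 : ℝ) := by rw [ha]; (clear * - hL hx0; field_simp)
        rw [this, Real.sqrt_mul (by (clear * - hM0 hc0 hs0; positivity)), Real.sqrt_eq_rpow (x ^ (1 / 4 : ℝ)),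
          ← Real.rpow_mul hx0.le]
        norm_num
      have hvar : (K : ℝ) * (((2 * L : ℕ) : ℝ) * (s * (1 - s)) + p * (1 - p)) ≤ K * L := by
        refine mul_le_mul_of_nonneg_left ?_ hK0.le
        have q1 := quarter s
        have q2 := quarter p
        push_cast
        nlinarith only [hLR, q2, q1]
      have t2 : (K : ℝ) * (((2 * L : ℕ) : ℝ) * (s * (1 - s)) + p * (1 - p)) / a ^ 2 ≤ Real.sqrt x := by
        have ha2 : a ^ 2 = L ^ 2 * Real.sqrt x := by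
          rw [ha, mul_pow, ← Real.rpow_natCast (x ^ (1 / 4 : ℝ)) 2, ← Real.rpow_mul hx0.le,
            Real.sqrt_eq_rpow]
          norm_num
        have hsx : 0 < Real.sqrt x := Real.sqrt_pos.mpr hx0
        rw [div_le_iff₀ (by (clear * - hL hK; positivity)), ha2]
        have : Real.sqrt x * (L ^ 2 * Real.sqrt x) = K * L := by
          have : Real.sqrt x * Real.sqrt x = x := Real.mul_self_sqrt hx0.le
          calc Real.sqrt x * ((L : ℝ) ^ 2 * Real.sqrt x) = L ^ 2 * (Real.sqrt x * Real.sqrt x) := by ring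
            _ = L ^ 2 * x := by rw [this]
            _ = K * L := by rw [hx]; field_simp
        rw [this]
        exact hvar
      rw [t1]
      have h5 : 0 ≤ 2 * C3 * x ^ (1 / 8 : ℝ) := by (clear * - hM0 hc0 hs0 hK hL; positivity)
      calc Real.sqrt (3 * C2) * x ^ (1 / 8 : ℝ)
            + 2 * ((K : ℝ) * (((2 * L : ℕ) : ℝ) * (s * (1 - s)) + p * (1 - p)) / a ^ 2)
          ≤ Real.sqrt (3 * C2) * x ^ (1 / 8 : ℝ) + 2 * x ^ (1 / 8 : ℝ) := by
            have := t2.trans hx28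
            linarith only [hx28, t2]
        _ ≤ (Real.sqrt (3 * C2) + 2 + 2 * C3) * x ^ (1 / 8 : ℝ) := by linarith only [h5]
    · have := hpar.p0
      (clear * - hK hL hs hq1; positivity)
  · -- trivial case
    rw [not_le] at hsm
    have h2 : MA.l1 ((Us q s ^ L * E q * Us q s ^ L) ^ K - (Us q s ^ L * Eb q * Us q s ^ L) ^ K) ≤ 2 := by
      have := (MA.str (G := FreeMonoid (Fin 3))).nrm_sub ((Us q s ^ L * E q * Us q s ^ L) ^ K)
        ((Us q s ^ L * Eb q * Us q s ^ L) ^ K)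
      have e1 := (L1Str.Prob.pow hpG K).2
      have e2 := (L1Str.Prob.pow hpG' K).2
      rw [e1, e2] at this
      refine this.trans ?_
      norm_num
    have h3 : 1 ≤ C3 * Real.sqrt x := by
      have hsL : 0 < Real.sqrt (L : ℝ) := Real.sqrt_pos.mpr hL0
      have : Real.sqrt x = Real.sqrt K / Real.sqrt L := by rw [hx, Real.sqrt_div hK0.le]
      rw [this]
      calc (1 : ℝ) ≤ 24 * M * RR s0 s L * Real.sqrt K := hsm.le
        _ ≤ 24 * M * (R / Real.sqrt L) * Real.sqrt K := by (clear * - hRR hM0 hK; gcongr)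
        _ = C3 * (Real.sqrt K / Real.sqrt L) := by rw [hC3]; ring
    have h4 : 0 ≤ Real.sqrt (3 * C2) * x ^ (1 / 8 : ℝ) := by (clear * - hK hL; positivity)
    have h5 : C3 * Real.sqrt x ≤ C3 * x ^ (1 / 8 : ℝ) := mul_le_mul_of_nonneg_left hx28 hC30
    calc _ ≤ (2 : ℝ) := h2
      _ ≤ 2 * (C3 * x ^ (1 / 8 : ℝ)) := by linarith only [h5, h3]
      _ ≤ (Real.sqrt (3 * C2) + 2 + 2 * C3) * x ^ (1 / 8 : ℝ) := by linarith only [hx8, h4]

/-- comparison of blank products -/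
theorem blank_compare_x {q : ℝ} (hq0 : 0 < q) (hq1 : q < 1) :
    ∀ K L : ℕ, 1 ≤ K → 1 ≤ L →
      MA.l1 ((Us q ((K : ℝ) / (K + 1) * (1 - q ^ 2)) ^ L * Eb q *
          Us q ((K : ℝ) / (K + 1) * (1 - q ^ 2)) ^ L) ^ (K + 1)
        - (U q ^ L * Eb q * U q ^ L) ^ K) ≤ blaC q / Real.sqrt K := by
  set s : ℝ := 1 - q ^ 2 with hs
  have hq2 : q ^ 2 < 1 := by nlinarith only [hq1, hq0]
  have hq2' : 0 < q ^ 2 := by positivity
  set ρ : ℝ := min (q ^ 2) (1 - q ^ 2) with hρ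
  have hρ0 : 0 < ρ := lt_min hq2' (by linarith)
  have hρ1 : ρ ≤ s := min_le_right _ _
  have hρ2 : ρ ≤ 1 - s := by rw [hs, sub_sub_cancel]; exact min_le_left _ _
  set ρ' : ℝ := min q (1 - q) with hρ'
  have hρ'0 : 0 < ρ' := lt_min hq0 (by linarith only [hq1])
  have hρ'1 : ρ' ≤ 1 - q := min_le_right _ _
  have hρ'2 : ρ' ≤ 1 - (1 - q) := by rw [sub_sub_cancel]; exact min_le_left _ _
  have c0 := cc_pos hρ0
  have c0' := cc_pos hρ'0
  have hblaC : blaC q = (2 * cc ρ + 3) + cc ρ' := rfl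
  rw [hblaC]
  intro K L hK hL
  have hKR : (1 : ℝ) ≤ K := by exact_mod_cast hK
  have hLR : (1 : ℝ) ≤ L := by exact_mod_cast hL
  set θ : ℝ := (K : ℝ) / (K + 1) with hθ
  have hθ0 : 0 ≤ θ := by positivity
  have hθ1 : θ ≤ 1 := by rw [hθ, div_le_one (by positivity)]; linarith only []
  have hUs : U q = Us q s := (Us_U q).symm
  have hPU : MA.Prob (Us q s) := prob_Us hq0.le hq1.le (by linarith only [hq2]) (by linarith only [hq2'])
  have hPE : MA.Prob (Eb q) := by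
    rw [Eb_eq]; exact prob_Us hq0.le hq1.le (by linarith only [hq1]) (by linarith only [hq0])
  -- commuting normal form
  have nf : ∀ s k, (Us q s ^ L * Eb q * Us q s ^ L) ^ k = Us q s ^ (2 * L * k) * Eb q ^ k := by
    intro s k
    rw [blank_pow_eq, al, map_mul, map_pow, map_pow]
    have h1 : ∀ t, aeval (NN (nu q)) (cn t) = Us q t := fun t => al_cn q t
    rw [h1, h1, Eb_eq]
  rw [nf, hUs, nf]
  have step1 : MA.l1 (Us q (θ * s) ^ (2 * L * (K + 1)) - Us q s ^ (2 * L * K))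
      ≤ (2 * cc ρ + 3) / Real.sqrt K := by
    have e1 : Us q (θ * s) ^ (2 * L * (K + 1)) = aeval (Us q s) (cn θ ^ (2 * L * (K + 1))) := by
      rw [map_pow, cn, map_add, map_mul, aeval_C, aeval_C, aeval_X,
        Algebra.algebraMap_eq_smul_one, Algebra.algebraMap_eq_smul_one, smul_mul_assoc, one_mul,
        Us_tilt]
    have hPB := (PB.cn hθ0 hθ1).pow (2 * L * (K + 1))
    have hmean : ((2 * L * (K + 1) : ℕ) : ℝ) * θ = ((2 * L * K : ℕ) : ℝ) := by
      rw [hθ]; push_cast; (clear * - hK hL; field_simp)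
    rw [hmean] at hPB
    have hvar : ((2 * L * (K + 1) : ℕ) : ℝ) * (θ * (1 - θ)) ≤ Real.sqrt (2 * L) ^ 2 := by
      rw [Real.sq_sqrt (by (clear * - hL; positivity)), ← mul_assoc, hmean]
      have : 1 - θ = 1 / ((K : ℝ) + 1) := by rw [hθ]; field_simp; ring
      rw [this]
      push_cast
      rw [mul_one_div, div_le_iff₀ (by positivity)]
      linarith only []
    have h := (MA.str (G := FreeMonoid (Fin 3))).nrm_mix_sub_pow hPU c0.le
      (fun n => smooth_Us hq0.le hq1.le hρ0 hρ1 hρ2 n) (2 * L * K) hPB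
      (Real.sqrt_pos.mpr (by positivity)) hvar
    rw [e1]
    refine (show MA.l1 _ ≤ _ from h).trans ?_
    rw [div_le_div_iff₀ (Real.sqrt_pos.mpr (by positivity)) (Real.sqrt_pos.mpr (by positivity)),
      mul_assoc]
    refine mul_le_mul_of_nonneg_left ?_ (by positivity)
    rw [← Real.sqrt_mul (by positivity)]
    refine Real.sqrt_le_sqrt ?_
    push_cast
    linarith only []
  have step2 : MA.l1 (Eb q ^ K - Eb q ^ (K + 1)) ≤ cc ρ' / Real.sqrt K := by
    have e : Eb q ^ K - Eb q ^ (K + 1) = (1 - Us q (1 - q)) * Us q (1 - q) ^ K := by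
      rw [Eb_eq, sub_mul, one_mul, ← pow_succ']
    rw [e]
    refine (smooth_Us hq0.le hq1.le hρ'0 hρ'1 hρ'2 K).trans ?_
    refine div_le_div_of_nonneg_left c0'.le (Real.sqrt_pos.mpr (by positivity)) ?_
    exact Real.sqrt_le_sqrt (by linarith only [])
  refine (l1_mul_sub_mul _ _ _ _).trans ?_
  rw [l1_pow_prob hPE, l1_pow_prob hPU, mul_one, one_mul, add_div, MA.l1_sub_comm (Eb q ^ (K + 1))]
  exact add_le_add step1 step2

/-- the overlap with explicit error terms -/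
theorem overlap_core_x {q : ℝ} (hq0 : 0 < q) (hq1 : q < 1) :
    ∀ K L : ℕ, 1 ≤ K → K + 1 ≤ L →
      ovC q * (((K + 1 : ℕ) : ℝ) / L) ^ (1 / 8 : ℝ) + ovC q / Real.sqrt K ≤ 1 / 4 →
      ∃ h : LA, MA.nonneg h ∧ MA.le h (cell q L L ^ K) ∧ MA.le h (cell q L L ^ (K + 1)) ∧
        Real.exp (-(10 / q ^ 2) * ((L : ℝ) / K)) / 2 ≤ MA.l1 h := by
  have hq2 : 0 < q ^ 2 := by positivity
  have hq2' : q ^ 2 < 1 := by nlinarith
  set s0 : ℝ := min (q ^ 2) ((1 - q ^ 2) / 2) with hs0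
  have hs00 : 0 < s0 := lt_min hq2 (by linarith only [hq2'])
  have hs01 : s0 ≤ q ^ 2 := min_le_left _ _
  have hs02 : s0 ≤ (1 - q ^ 2) / 2 := min_le_right _ _
  obtain ⟨C1, hC1, e1C, hI⟩ : ∃ C1 : ℝ, 0 < C1 ∧ invC q s0 = C1 ∧ _ :=
    ⟨_, invC_pos hq0 hq1 hs00, rfl, invisible_x hq0 hq1 hs00⟩
  rw [e1C] at hI
  obtain ⟨C2, hC2, e2C, hB⟩ : ∃ C2 : ℝ, 0 < C2 ∧ blaC q = C2 ∧ _ :=
    ⟨_, blaC_pos hq0 hq1, rfl, blank_compare_x hq0 hq1⟩
  rw [e2C] at hB
  have hovC : ovC q = 2 * C1 + C2 := by rw [← e1C, ← e2C]; rfl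
  rw [hovC]
  intro K L hK hKL hsmall
  have hL : 1 ≤ L := by omega
  have hKR : (1 : ℝ) ≤ K := by exact_mod_cast hK
  have hL0 : (0 : ℝ) < L := by exact_mod_cast hL
  set θ : ℝ := (K : ℝ) / (K + 1) with hθ
  have hθ0 : 0 < θ := by rw [hθ]; positivity
  have hθ1 : θ ≤ 1 := by rw [hθ, div_le_one (by positivity)]; linarith only []
  have hθ2 : 1 / 2 ≤ θ := by rw [hθ, div_le_div_iff₀ (by norm_num) (by positivity)]; linarith only [hKR]
  set s : ℝ := θ * (1 - q ^ 2) with hs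
  have hs0' : 0 ≤ s := mul_nonneg hθ0.le (by linarith only [hs00, hs02])
  have hs1 : s ≤ 1 - q ^ 2 := by
    rw [hs]
    calc θ * (1 - q ^ 2) ≤ 1 * (1 - q ^ 2) := mul_le_mul_of_nonneg_right hθ1 (by linarith only [hs00, hs02])
      _ = _ := one_mul _
  have hs2 : s0 ≤ s := by
    refine hs02.trans ?_
    rw [hs]
    nlinarith only [hq2', hθ2]
  set n : ℕ := 2 * L * (K + 1) with hn
  set u : ℕ := ⌈((n : ℝ) * s - 4 * Real.sqrt n)⌉₊ with hu
  set A : LA := cell q L L ^ K with hA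
  set Bh : LA := (Us q s ^ L * E q * Us q s ^ L) ^ (K + 1) with hBh
  set T : LA := typ q s L (K + 1) u with hT
  set T' : LA := atyp q s L (K + 1) u with hT'
  have hTT : T + T' = Bh := typ_add_atyp q s L (K + 1) u
  have hTn : MA.nonneg T := typ_nonneg hq0.le hq1.le hs0' (by linarith only [hq2, hs1]) L (K + 1) u
  have hTn' : MA.nonneg T' := atyp_nonneg hq0.le hq1.le hs0' (by linarith only [hq2, hs1]) L (K + 1) u
  have hT'm : MA.aug T' ≤ 1 / 64 := by
    refine atyp_aug_le hq0.le hq1.le hs0' (by linarith only [hq2, hs1]) L (K + 1) u ?_ (by positivity)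
    intro j hj
    exact (Nat.lt_ceil.mp hj).le
  have hUs : MA.Prob (Us q s) := prob_Us hq0.le hq1.le hs0' (by linarith only [hq2, hs1])
  have hpA : MA.Prob A := L1Str.Prob.pow (prob_cell hq0.le hq1.le L L) K
  have hpB : MA.Prob Bh := L1Str.Prob.pow (L1Str.Prob.mul (L1Str.Prob.mul (L1Str.Prob.pow hUs L)
    (prob_E hq0.le hq1.le)) (L1Str.Prob.pow hUs L)) (K + 1)
  -- distance between `A` and `Bh`
  have hAB : MA.l1 (A - Bh) ≤ 1 / 4 := by
    have d1 := hI (1 - q ^ 2) (by linarith only [hs00, hs02]) (by linarith only [hs01]) K L hK (by (clear * - hKL; omega))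
    have d2 := hB K L hK hL
    have d3 := hI s hs2 (by linarith only [hs01, hs1]) (K + 1) L (by omega) hKL
    rw [Us_U] at d1
    have hA' : (U q ^ L * E q * U q ^ L) ^ K = A := rfl
    rw [hA'] at d1
    rw [← hBh] at d3
    rw [← hθ, ← hs] at d2
    rw [MA.l1_sub_comm] at d2 d3
    have hx : ((K : ℝ) / L) ^ (1 / 8 : ℝ) ≤ (((K + 1 : ℕ) : ℝ) / L) ^ (1 / 8 : ℝ) := by
      refine Real.rpow_le_rpow (by (clear * - hK hL; positivity)) ?_ (by norm_num)
      refine div_le_div_of_nonneg_right ?_ hL0.le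
      push_cast; linarith only []
    have t1 := (MA.str (G := FreeMonoid (Fin 3))).nrm_triangle A ((U q ^ L * Eb q * U q ^ L) ^ K) Bh
    have t2 := (MA.str (G := FreeMonoid (Fin 3))).nrm_triangle ((U q ^ L * Eb q * U q ^ L) ^ K)
      ((Us q s ^ L * Eb q * Us q s ^ L) ^ (K + 1)) Bh
    simp only [MA.str_nrm] at t1 t2
    have h0 : 0 ≤ C2 * (((K + 1 : ℕ) : ℝ) / L) ^ (1 / 8 : ℝ) := by (clear * - hC2 hK hL; positivity)
    have h0' : 0 ≤ 2 * C1 / Real.sqrt K := by positivity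
    have h1 : C1 * ((K : ℝ) / L) ^ (1 / 8 : ℝ) ≤ C1 * (((K + 1 : ℕ) : ℝ) / L) ^ (1 / 8 : ℝ) :=
      mul_le_mul_of_nonneg_left hx hC1.le
    have h2 : (2 * C1 + C2) / Real.sqrt K = 2 * C1 / Real.sqrt K + C2 / Real.sqrt K := add_div _ _ _
    rw [h2] at hsmall
    linarith only [h1, h0', h0, t2, t1, d3, d2, d1, hsmall]
  -- the common part
  obtain ⟨m, hm0, hm1, hm2, hm3⟩ := MA.exists_min hpA.1 hTn
  have hTm : MA.l1 T = 1 - MA.aug T' := by
    have e1 : MA.aug T + MA.aug T' = 1 := by rw [← MA.aug_add, hTT]; exact hpB.aug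
    rw [MA.l1_of_nonneg hTn]; linarith only [e1]
  have hAT : MA.l1 (A - T) ≤ 1 / 4 + MA.aug T' := by
    have e : A - T = (A - Bh) + T' := by rw [← hTT]; abel
    rw [e]
    refine (MA.l1_add _ _).trans ?_
    rw [MA.l1_of_nonneg hTn']
    linarith only [hAB]
  have hml : 1 / 2 ≤ MA.l1 m := by
    have e1 : MA.l1 A = 1 := hpA.2
    rw [e1, hTm] at hm3
    linarith only [hAT, hm3, hT'm]
  set δ : ℝ := Real.exp (-(10 / q ^ 2) * ((L : ℝ) / K)) with hδ
  have hδ0 : 0 < δ := Real.exp_pos _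
  have hδ1 : δ ≤ 1 := by
    rw [hδ]
    refine Real.exp_le_one_iff.mpr ?_
    have : 0 ≤ 10 / q ^ 2 * ((L : ℝ) / K) := by positivity
    linarith only [this]
  refine ⟨δ • m, MA.nonneg_smul hδ0.le hm0, ?_, ?_, ?_⟩
  · have h1 : MA.le m A := MA.le_iff.mpr hm1
    refine MA.le_trans ?_ h1
    intro w
    rw [MonoidAlgebra.coeff_smul, Finsupp.smul_apply, smul_eq_mul]
    have := hm0 w
    linarith only [mul_nonneg (sub_nonneg.2 hδ1) (sub_nonneg.2 this)]
  · have h1 : MA.le m T := MA.le_iff.mpr hm2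
    have h2 : MA.le (δ • m) (δ • T) := MA.le_smul hδ0.le h1
    have h3 : δ ≤ (q ^ 2 / (1 - s)) ^ (2 * L * (K + 1)) * ((1 - s) / (θ * q ^ 2)) ^ u :=
      rho_lower hq0 hq1 hK (by omega) hθ hs rfl (by
        rw [← hn]
        exact Nat.le_ceil _)
    have h4 : MA.le (δ • T)
        (((q ^ 2 / (1 - s)) ^ (2 * L * (K + 1)) * ((1 - s) / (θ * q ^ 2)) ^ u) • T) := by
      intro w
      rw [MonoidAlgebra.coeff_smul, Finsupp.smul_apply, smul_eq_mul, MonoidAlgebra.coeff_smul,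
        Finsupp.smul_apply, smul_eq_mul]
      exact mul_le_mul_of_nonneg_right h3 (hTn w)
    exact MA.le_trans h2 (MA.le_trans h4 (typ_le hq0 hq1 hθ0 hθ1 hs L (K + 1) u))
  · rw [MA.l1_smul, abs_of_pos hδ0]
    linarith only [mul_nonneg (sub_nonneg.2 hml) (le_of_lt (sub_pos.2 hδ0))]

theorem cc_sq_le {q : ℝ} (hq0 : 0 < q) : cc (q ^ 2) ≤ 2 * q⁻¹ := by
  unfold cc
  have h1 : q ≤ Real.sqrt (2 * q ^ 2) := by
    refine Real.le_sqrt_of_sq_le ?_
    nlinarith only [sq_nonneg q]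
  rw [div_eq_mul_inv]
  exact mul_le_mul_of_nonneg_left (inv_anti₀ hq0 h1) (by norm_num)

theorem ovC_le {q : ℝ} (hq0 : 0 < q) (hq : q ≤ 1 / 2) : ovC q ≤ R4.H101.Pq 7 q := by
  have hq1 : q < 1 := by linarith only [hq]
  have hq2 : q ^ 2 ≤ 1 / 4 := by nlinarith only [hq0, hq]
  have m1 : min (q ^ 2) ((1 - q ^ 2) / 2) = q ^ 2 := min_eq_left (by linarith only [hq2])
  have m2 : min (q ^ 2) (1 - q ^ 2) = q ^ 2 := min_eq_left (by linarith only [hq2])
  have m3 : min q (1 - q) = q := min_eq_left (by linarith only [hq])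
  have hk : kap (nu q) 0 = q⁻¹ := by
    simp only [kap, nu, Matrix.cons_val_zero]
    field_simp
    ring
  have hi : 2 ≤ q⁻¹ := by
    rw [le_inv_comm₀ (by norm_num) hq0]; linarith only [hq]
  have hc := cc_sq_le hq0
  have hc0 : 0 < cc (q ^ 2) := cc_pos (by positivity)
  have hcq : cc q ≤ cc (q ^ 2) := by
    unfold cc
    refine div_le_div_of_nonneg_left (by norm_num) (Real.sqrt_pos.mpr (by positivity)) ?_
    refine Real.sqrt_le_sqrt ?_
    nlinarith only [hq0, hq]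
  have h12 : 12 / (q ^ 2) ^ 2 = 12 * (q⁻¹) ^ 4 := by field_simp
  rw [ovC, invC, blaC, m1, m2, m3, hk, h12, R4.H101.Pq, div_eq_mul_inv]
  set t := q⁻¹ with ht
  set c := cc (q ^ 2) with hcd
  have ht0 : 0 < t := by linarith only [hi]
  have ht1 : 1 ≤ t := by linarith only [hi]
  have hp1 : (1 - q) ^ 2 ≤ 1 := by nlinarith only [hq0, hq]
  have hp0 : 0 ≤ (1 - q) ^ 2 := sq_nonneg _
  have hM : (1 - q) ^ 2 * t ≤ t := by nlinarith only [hp1, ht0]
  have ht4 : 1 ≤ t ^ 4 := one_le_pow₀ ht1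
  have hR : c * (1 + 12 * t ^ 4) ≤ 26 * t ^ 5 := by
    calc c * (1 + 12 * t ^ 4) ≤ (2 * t) * (13 * t ^ 4) := by
          refine mul_le_mul hc (by linarith only [ht4]) (by positivity) (by positivity)
      _ = 26 * t ^ 5 := by ring
  have hR0 : 0 ≤ c * (1 + 12 * t ^ 4) := by positivity
  have hC3 : 24 * ((1 - q) ^ 2 * t) * (c * (1 + 12 * t ^ 4)) ≤ 624 * t ^ 6 := by
    calc 24 * ((1 - q) ^ 2 * t) * (c * (1 + 12 * t ^ 4)) ≤ 24 * t * (26 * t ^ 5) := by
          refine mul_le_mul (by linarith only [hM]) hR hR0 (by positivity)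
      _ = 624 * t ^ 6 := by ring
  have hC30 : 0 ≤ 24 * ((1 - q) ^ 2 * t) * (c * (1 + 12 * t ^ 4)) := by positivity
  have hC2 : 24 * ((1 - q) ^ 2 * t) * (c * (1 + 12 * t ^ 4)) * c ≤ 1248 * t ^ 7 := by
    calc 24 * ((1 - q) ^ 2 * t) * (c * (1 + 12 * t ^ 4)) * c ≤ 624 * t ^ 6 * (2 * t) :=
          mul_le_mul hC3 hc hc0.le (by positivity)
      _ = 1248 * t ^ 7 := by ring
  have ht7 : 1 ≤ t ^ 7 := one_le_pow₀ ht1
  have hs : Real.sqrt (3 * (24 * ((1 - q) ^ 2 * t) * (c * (1 + 12 * t ^ 4)) * c))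
      ≤ 3744 * t ^ 7 := by
    rw [Real.sqrt_le_left (by positivity)]
    have h5 : 3744 * t ^ 7 ≤ (3744 * t ^ 7) ^ 2 := by nlinarith only [ht7]
    linarith only [hC2, h5]
  have h6 : t ^ 6 ≤ t ^ 7 := pow_le_pow_right₀ ht1 (by norm_num)
  have h1t : t ≤ t ^ 7 := by
    calc t = t ^ 1 := (pow_one t).symm
      _ ≤ t ^ 7 := pow_le_pow_right₀ ht1 (by norm_num)
  have e : (((7 : ℕ) : ℝ) * t) ^ 7 = 823543 * t ^ 7 := by rw [mul_pow]; norm_num
  rw [e]
  linarith only [hs, hC3, h6, h1t, ht7, hc, hcq]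

end Cr

end Vale.Agent.P321

namespace Vale.Agent.P321.R4.H306

open Vale.Agent.P321.Lt

theorem stCore : H101.StCore := by
  refine ⟨7, by norm_num, fun q h0 hq K L hK hKL h => ?_⟩
  refine Cr.overlap_core_x h0 (by linarith only [hq]) K L hK hKL (le_trans ?_ h)
  have h1 := Cr.ovC_le h0 hq
  have h2 : 0 ≤ (((K + 1 : ℕ) : ℝ) / L) ^ (1 / 8 : ℝ) := by positivity
  exact add_le_add (mul_le_mul_of_nonneg_right h1 h2)
    (div_le_div_of_nonneg_right h1 (Real.sqrt_nonneg _))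

end Vale.Agent.P321.R4.H306
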